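import Vale.Agent.P066.Z.Base.Kernel

/-!
# P066, module G: degree pieces of the staircase decomposition
-/

noncomputable section

namespace Vale.Agent.P066.Z.Base

open Finset MvPolynomial
open scoped Classical

variable {n : ℕ} (h : Fin n → Fin n)

/-- A staircase combination of functions of keys. -/
def stair (c : Exp h → Key h → P n) : Fn n := fun w => ∑ α, c α (key' h w) * mon h α w

variable {h}

lemma stair_add (c c' : Exp h → Key h → P n) : stair h (c + c') = stair h c + stair h c' := by
  funext w; simp [stair, add_mul, sum_add_distrib]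

lemma stair_sub (c c' : Exp h → Key h → P n) : stair h (c - c') = stair h c - stair h c' := by
  funext w; simp [stair, sub_mul, sum_sub_distrib]

lemma stair_smul (r : P n) (c : Exp h → Key h → P n) : stair h (r • c) = r • stair h c := by
  funext w; simp [stair, mul_sum, mul_assoc]

lemma mon_isHomogeneous (α : Exp h) (w : Equiv.Perm (Fin n)) :
    (mon h α w).IsHomogeneous (wt h α) :=
  MvPolynomial.IsHomogeneous.prod univ _ (fun i => (α i).val) fun _ _ => isHomogeneous_X_pow _ _

lemma hcomp_mul {a b : P n} {e d : ℕ} (hb : b.IsHomogeneous e) :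
    homogeneousComponent d (a * b)
      = if e ≤ d then homogeneousComponent (d - e) a * b else 0 := by
  conv_lhs => rw [← sum_homogeneousComponent a]
  rw [sum_mul, map_sum]
  have hi : ∀ i, homogeneousComponent d (homogeneousComponent i a * b)
      = if d = i + e then homogeneousComponent i a * b else 0 := fun i =>
    homogeneousComponent_of_mem ((homogeneousComponent_isHomogeneous i a).mul hb)
  simp only [hi]
  split_ifs with hed
  · rw [sum_eq_single (d - e)]
    · rw [if_pos (by omega)]
    · intro i _ hne; rw [if_neg (by omega)]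
    · intro hnot
      rw [homogeneousComponent_eq_zero _ _ (by simp at hnot; omega), zero_mul, ite_self]
  · exact sum_eq_zero fun i _ => if_neg (by omega)

lemma stair_deg {c : Exp h → Key h → P n} {d : ℕ} (h0 : ∀ α K, d < wt h α → c α K = 0)
    (h1 : ∀ α K, wt h α ≤ d → (c α K).IsHomogeneous (d - wt h α)) : stair h c ∈ Deg d := by
  refine Submodule.mem_pi.2 fun w _ => ?_
  refine (mem_homogeneousSubmodule _ _).2 (MvPolynomial.IsHomogeneous.sum _ _ _ fun α _ => ?_)
  by_cases e : wt h α ≤ d
  · have := (h1 α (key' h w) e).mul (mon_isHomogeneous α w)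
    rwa [Nat.sub_add_cancel e] at this
  · rw [h0 α _ (not_le.1 e), zero_mul]; exact isHomogeneous_zero _ _ _

variable (hh : IsHess h) (hc : CliqueUnion h)

include hh hc

lemma stair_mem (c : Exp h → Key h → P n) : stair h c ∈ M h := by
  intro w i j hij
  obtain ⟨hlt, hblk⟩ := (adj_iff hh hc).1 hij
  have e : key' h (w * Equiv.swap i j) = key' h w := Subtype.ext (key_mul_swap w hblk)
  simp only [stair, e, ← sum_sub_distrib, ← mul_sub]
  refine dvd_sum fun α _ => Dvd.dvd.mul_left ?_ _
  rw [dvd_iff_idn, map_sub, sub_eq_zero]
  simp only [mon, map_prod, map_pow]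
  refine prod_congr rfl fun l _ => ?_
  have hne : w i ≠ w j := w.injective.ne hlt.ne
  congr 1
  rw [Equiv.Perm.mul_apply, Equiv.swap_apply_def]
  split_ifs with h1 h2
  · rw [h1, idn_X, idn_X, if_pos rfl, if_neg hne]
  · rw [h2, idn_X, idn_X, if_pos rfl, if_neg hne]
  · rfl

lemma stair_inj {c : Exp h → Key h → P n} (e : stair h c = 0) : c = 0 := by
  funext α K
  obtain ⟨w0, rfl⟩ := key'_surj h K
  refine unique_step hh hc (fun l => X l) n 0 (by omega) w0 (fun γ => c γ (key' h w0))
    (fun γ hγ => absurd (fun i hi => absurd hi (Nat.not_lt_zero _)) hγ)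
    (fun i j _ _ _ e => w0.injective (X_injective e)) (fun v hv => ?_) α
  have := congrFun e v
  rw [show key' h w0 = key' h v from Subtype.ext hv.1]
  simpa [stair, mon] using this

lemma exists_stair {f : Fn n} (hf : f ∈ M h) : ∃ c, stair h c = f := by
  obtain ⟨c, hinv, -, hfc⟩ := span_step hh hc hf n 0 (by omega)
  refine ⟨fun α K => c α (key'_surj h K).choose, funext fun w => ?_⟩
  rw [hfc w]
  refine sum_congr rfl fun α _ => ?_
  congr 1
  exact hinv α _ _ ⟨congrArg Subtype.val (key'_surj h (key' h w)).choose_spec,
    fun i hi => absurd hi (Nat.not_lt_zero _)⟩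

lemma coef_homogeneous {c : Exp h → Key h → P n} {d : ℕ} (hd : stair h c ∈ Deg d) :
    (∀ α K, d < wt h α → c α K = 0) ∧
      ∀ α K, wt h α ≤ d → (c α K).IsHomogeneous (d - wt h α) := by
  set c' : Exp h → Key h → P n := fun α K =>
    if wt h α ≤ d then homogeneousComponent (d - wt h α) (c α K) else 0 with hc'
  have e : stair h c' = stair h c := by
    funext w
    have hw := (mem_homogeneousSubmodule _ _).1 (Submodule.mem_pi.1 hd w (Set.mem_univ w))
    have hw' : homogeneousComponent d (stair h c w) = stair h c w := by
      rw [homogeneousComponent_of_mem hw, if_pos rfl]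
    rw [← hw']
    simp only [stair, map_sum, hcomp_mul (mon_isHomogeneous _ w), hc', ite_mul, zero_mul]
  have e0 : c' - c = 0 := stair_inj hh hc (by rw [stair_sub, e, sub_self])
  rw [sub_eq_zero] at e0
  rw [← e0]
  refine ⟨fun α K hlt => if_neg (not_le.2 hlt), fun α K hle => ?_⟩
  simp only [hc', if_pos hle]
  exact homogeneousComponent_isHomogeneous _ _

omit hh hc in
/-- The degree `d` exponents. -/
abbrev Idx (h : Fin n → Fin n) (d : ℕ) := {α : Exp h // wt h α = d}

/-- Coefficients of an element of the degree `d` part. -/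
def coef (d : ℕ) (f : part (M h) d) : Exp h → Key h → P n := (exists_stair hh hc f.2.1).choose

lemma stair_coef (d : ℕ) (f : part (M h) d) : stair h (coef hh hc d f) = f.1 :=
  (exists_stair hh hc f.2.1).choose_spec

lemma coef_eq {d : ℕ} {f : part (M h) d} {c : Exp h → Key h → P n} (e : f.1 = stair h c) :
    coef hh hc d f = c := by
  rw [← sub_eq_zero]
  exact stair_inj hh hc (by rw [stair_sub, stair_coef, e, sub_self])

/-- The constant terms of the coefficients of top degree. -/
def proj (d : ℕ) : part (M h) d →ₗ[ℚ] (Idx h d → Key h → ℚ) where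
  toFun f a K := constantCoeff (coef hh hc d f a.1 K)
  map_add' f g := by
    funext a K
    rw [coef_eq hh hc (f := f + g) (c := coef hh hc d f + coef hh hc d g) (by
      rw [stair_add, stair_coef, stair_coef]; rfl)]
    simp
  map_smul' r f := by
    funext a K
    rw [coef_eq hh hc (f := r • f) (c := (C r : P n) • coef hh hc d f) (by
      rw [stair_smul, stair_coef]
      funext w
      simp [smul_eq_C_mul])]
    simp

lemma proj_surj (d : ℕ) : Function.Surjective (proj hh hc d) := by
  intro v
  set c : Exp h → Key h → P n := fun α K => if e : wt h α = d then C (v ⟨α, e⟩ K) else 0 with hcd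
  have hd : stair h c ∈ Deg d := stair_deg (fun α K hlt => dif_neg hlt.ne') fun α K _ => by
    simp only [hcd]
    split_ifs with e
    · rw [e, Nat.sub_self]; exact isHomogeneous_C _ _
    · exact isHomogeneous_zero _ _ _
  refine ⟨⟨stair h c, stair_mem hh hc c, hd⟩, funext fun a => funext fun K => ?_⟩
  change constantCoeff (coef hh hc d ⟨stair h c, _⟩ a.1 K) = v a K
  rw [coef_eq hh hc (c := c) rfl]
  simp [hcd, a.2]

lemma proj_ker (d : ℕ) :
    LinearMap.ker (proj hh hc d) = (tpart (M h) d).comap (part (M h) d).subtype := by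
  refine le_antisymm (fun f hf => ?_) ?_
  · obtain ⟨hz, hhom⟩ := coef_homogeneous hh hc (c := coef hh hc d f) (d := d)
      (by rw [stair_coef]; exact f.2.2)
    have htop : ∀ α K, wt h α = d → coef hh hc d f α K = 0 := by
      intro α K e
      have h1 := hhom α K e.le
      rw [e, Nat.sub_self] at h1
      have h2 : constantCoeff (coef hh hc d f α K) = 0 :=
        congrFun (congrFun (LinearMap.mem_ker.1 hf) ⟨α, e⟩) K
      obtain ⟨r, hr⟩ : ∃ r, coef hh hc d f α K = C r :=
        ⟨coeff 0 (coef hh hc d f α K),
          totalDegree_eq_zero_iff_eq_C.1 (Nat.le_zero.1 h1.totalDegree_le)⟩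
      rw [hr, constantCoeff_C] at h2
      rw [hr, h2, C_0]
    change f.1 ∈ tpart (M h) d
    rw [← stair_coef hh hc d f]
    cases d with
    | zero =>
      have : coef hh hc 0 f = 0 := by
        funext α K
        rcases Nat.eq_zero_or_pos (wt h α) with e | e
        · exact htop α K e
        · exact hz α K e
      rw [this, show stair h (0 : Exp h → Key h → P n) = 0 by funext w; simp [stair]]
      exact zero_mem _
    | succ d =>
      set r : Fin n → Exp h → Key h → P n := fun j α K =>
        (((d + 1 - wt h α : ℕ) : ℚ)⁻¹) • pderiv j (coef hh hc (d + 1) f α K) with hr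
      have he : stair h (coef hh hc (d + 1) f) = ∑ j, (X j : P n) • stair h (r j) := by
        funext w
        simp only [stair, Finset.sum_apply, Pi.smul_apply, smul_eq_mul, mul_sum]
        rw [sum_comm]
        refine sum_congr rfl fun α _ => ?_
        simp only [← mul_assoc, ← sum_mul]
        congr 1
        simp only [hr, mul_smul_comm, ← smul_sum]
        rcases lt_or_ge (wt h α) (d + 1) with e | e
        · rw [(hhom α _ e.le).sum_X_mul_pderiv, ← Nat.cast_smul_eq_nsmul ℚ, smul_smul,
            inv_mul_cancel₀ (Nat.cast_ne_zero.2 (by omega)), one_smul]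
        · rcases e.eq_or_lt with e | e
          · simp [htop α _ e.symm]
          · simp [hz α _ e]
      rw [he, tpart]
      refine sum_mem fun j _ => Submodule.mem_iSup_of_mem j
        (Submodule.mem_map.2 ⟨stair h (r j), ⟨stair_mem hh hc _, ?_⟩, rfl⟩)
      refine stair_deg (fun α K hlt => ?_) fun α K hle => ?_
      · rcases Nat.lt_or_ge (d + 1) (wt h α) with e | e
        · simp [hr, hz α K e]
        · simp [hr, htop α K (by omega)]
      · have h1 := (hhom α K (by omega)).pderiv (i := j)
        rw [show d + 1 - wt h α - 1 = d - wt h α by omega] at h1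
        exact (homogeneousSubmodule _ _ _).smul_mem _ h1
  · cases d with
    | zero =>
      intro f hf
      have : f = 0 := Subtype.ext (by simpa [tpart] using hf)
      simp [this]
    | succ d =>
      suffices hle : tpart (M h) (d + 1) ≤
          (LinearMap.ker (proj hh hc (d + 1))).map (part (M h) (d + 1)).subtype by
        intro f hf
        obtain ⟨g, hg, e⟩ := Submodule.mem_map.1 (hle hf)
        exact Subtype.ext e ▸ hg
      refine iSup_le fun j => ?_
      rintro _ ⟨g, hg, rfl⟩
      obtain ⟨c, rfl⟩ := exists_stair hh hc hg.1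
      have hmem : (X j : P n) • stair h c ∈ part (M h) (d + 1) :=
        ⟨(M h).smul_mem _ hg.1, Submodule.mem_pi.2 fun w _ => by
          have := (isHomogeneous_X ℚ j).mul
            ((mem_homogeneousSubmodule _ _).1 (Submodule.mem_pi.1 hg.2 w (Set.mem_univ w)))
          rw [Nat.add_comm] at this
          exact this⟩
      refine ⟨⟨_, hmem⟩, LinearMap.mem_ker.2 (funext fun a => funext fun K => ?_), rfl⟩
      change constantCoeff (coef hh hc (d + 1) ⟨_, hmem⟩ a.1 K) = 0
      rw [coef_eq hh hc (c := (X j : P n) • c) (stair_smul _ _).symm]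
      simp

end Vale.Agent.P066.Z.Base
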