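import Vale.Agent.P066.Z.Spec

/-!
# P066, module G: the correspondence on functions of block positions

A key records the block of each label.  Z becomes `z0 g K = ∑ g κ` over the keys `κ` in which no
unmarked label has moved to a later block; it is `(1 - S)⁻¹`, `S` exchanging label 0 with a label of
a later block.
-/

noncomputable section

namespace Vale.Agent.P066.Z.Base

open Finset
open scoped Classical

variable {n : ℕ} (h : Fin n → Fin n)

/-- The block of each label. -/
def key (w : Equiv.Perm (Fin n)) : Fin n → Fin n := h ∘ w.symm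

/-- The keys of the cosets of the block subgroup. -/
abbrev Key := {κ : Fin n → Fin n // κ ∈ (univ : Finset (Equiv.Perm (Fin n))).image (key h)}

/-- The key of a permutation. -/
def key' (w : Equiv.Perm (Fin n)) : Key h := ⟨key h w, mem_image_of_mem _ (mem_univ _)⟩

lemma key'_surj (K : Key h) : ∃ w, key' h w = K := by
  obtain ⟨w, -, hw⟩ := mem_image.1 K.2
  exact ⟨w, Subtype.ext hw⟩

lemma key_mul (σ w : Equiv.Perm (Fin n)) : key h (σ * w) = key h w ∘ σ.symm := rfl

/-- Exchange of two labels in a key. -/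
def Key.swap (K : Key h) (a b : Fin n) : Key h :=
  ⟨K.1 ∘ Equiv.swap a b, by
    obtain ⟨w, -, hw⟩ := mem_image.1 K.2
    exact mem_image.2 ⟨Equiv.swap a b * w, mem_univ _, by
      rw [key_mul, hw, Equiv.symm_swap]⟩⟩

lemma card_le_eq (K : Key h) (b : Fin n) :
    (univ.filter fun l => K.1 l ≤ b).card = (univ.filter fun i => h i ≤ b).card := by
  obtain ⟨w, rfl⟩ := key'_surj h K
  refine card_bij' (fun l _ => w.symm l) (fun i _ => w i) ?_ ?_ ?_ ?_
  · intro l hl
    exact mem_filter.2 ⟨mem_univ _, by simpa [key', key] using (mem_filter.1 hl).2⟩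
  · intro i hi
    exact mem_filter.2 ⟨mem_univ _, by simpa [key', key] using (mem_filter.1 hi).2⟩
  · intro l _; simp
  · intro i _; simp

lemma card_fibre (K : Key h) (b : Fin n) :
    (univ.filter fun l => K.1 l = b).card = (univ.filter fun i => h i = b).card := by
  obtain ⟨w, rfl⟩ := key'_surj h K
  refine card_bij' (fun l _ => w.symm l) (fun i _ => w i) ?_ ?_ ?_ ?_
  · intro l hl
    exact mem_filter.2 ⟨mem_univ _, by simpa [key', key] using (mem_filter.1 hl).2⟩
  · intro i hi
    exact mem_filter.2 ⟨mem_univ _, by simpa [key', key] using (mem_filter.1 hi).2⟩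
  · intro l _; simp
  · intro i _; simp

variable [NeZero n]

/-- No unmarked label has moved to a later block. -/
def Reach (K κ : Key h) : Prop := ∀ l, l ≠ 0 → κ.1 l ≤ K.1 l

lemma reach_refl (K : Key h) : Reach h K K := fun _ _ => le_rfl

lemma reach_step {K κ : Key h} {l : Fin n} (hl : K.1 0 < K.1 l)
    (hr : Reach h (K.swap h 0 l) κ) : Reach h K κ ∧ κ.1 l ≤ K.1 0 := by
  have hne : l ≠ 0 := by rintro rfl; exact lt_irrefl _ hl
  have h1 : κ.1 l ≤ K.1 0 := by simpa [Key.swap] using hr l hne
  refine ⟨fun m hm => ?_, h1⟩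
  by_cases hml : m = l
  · subst hml; exact h1.trans hl.le
  · simpa [Key.swap, Equiv.swap_apply_of_ne_of_ne hm hml] using hr m hm

lemma reach_cases {K κ : Key h} (hr : Reach h K κ) (hne : κ ≠ K) :
    ∃! l, K.1 0 < K.1 l ∧ Reach h (K.swap h 0 l) κ := by
  set A : Key h → Fin n → Finset (Fin n) := fun J b => univ.filter fun l => J.1 l ≤ b with hA
  have hc : ∀ b, (A K b).card = (A κ b).card := fun b => by
    simp only [hA]; rw [card_le_eq h K b, card_le_eq h κ b]
  have hsub : ∀ b, (A K b).erase 0 ⊆ A κ b := fun b l hl => by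
    simp only [hA, mem_erase, mem_filter, mem_univ, true_and] at hl ⊢
    exact (hr l hl.1).trans hl.2
  have h0 : K.1 0 < κ.1 0 := by
    by_contra hcon
    rcases (not_lt.1 hcon).lt_or_eq with hlt | heq
    · have hs : insert 0 (A K (κ.1 0)) ⊆ A κ (κ.1 0) := by
        refine insert_subset (by simp [hA]) fun l hl => ?_
        by_cases e : l = 0
        · subst e; simp [hA]
        · exact hsub _ (mem_erase.2 ⟨e, hl⟩)
      have := card_le_card hs
      rw [card_insert_of_notMem (by simp [hA, hlt]), hc] at this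
      omega
    · refine hne (Subtype.ext (funext fun l => ?_))
      have hs : ∀ b, A K b = A κ b := fun b => eq_of_subset_of_card_le (fun l hl => by
        by_cases e : l = 0
        · subst e
          simp only [hA, mem_filter, mem_univ, true_and] at hl ⊢
          exact heq ▸ hl
        · exact hsub _ (mem_erase.2 ⟨e, hl⟩)) (hc b).ge
      have h1 : l ∈ A κ (K.1 l) := hs _ ▸ by simp [hA]
      have h2 : l ∈ A K (κ.1 l) := (hs _).symm ▸ by simp [hA]
      simp only [hA, mem_filter, mem_univ, true_and] at h1 h2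
      exact le_antisymm h1 h2
  set b := K.1 0
  have h0m : 0 ∈ A K b := by simp [hA, b]
  have h0n : 0 ∉ A κ b := by simp [hA, h0]
  have hcard : (A κ b \ (A K b).erase 0).card = 1 := by
    rw [card_sdiff_of_subset (hsub b), card_erase_of_mem h0m, ← hc b]
    have := card_pos.2 ⟨0, h0m⟩
    omega
  obtain ⟨l, hl⟩ := card_eq_one.1 hcard
  have hmem : ∀ m, K.1 0 < K.1 m ∧ κ.1 m ≤ b → m = l := by
    intro m hm
    rw [← mem_singleton, ← hl, mem_sdiff]
    simp [hA, hm.2, not_le.2 hm.1, b]
  have hl' : l ∈ A κ b \ (A K b).erase 0 := hl ▸ mem_singleton_self l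
  simp only [mem_sdiff, mem_erase, hA, mem_filter, mem_univ, true_and, not_and] at hl'
  have hl0 : l ≠ 0 := by rintro rfl; exact absurd hl'.1 (not_le.2 h0)
  have hlt : b < K.1 l := not_le.1 (hl'.2 hl0)
  refine ⟨l, ⟨hlt, fun m hm => ?_⟩, fun m hm => hmem m ⟨hm.1, (reach_step h hm.1 hm.2).2⟩⟩
  by_cases e : m = l
  · subst e; simpa [Key.swap] using hl'.1
  · simpa [Key.swap, Equiv.swap_apply_of_ne_of_ne hm e] using hr m hm

/-- Z on functions of keys. -/
def z0 : Module.End ℚ (Key h → ℚ) where
  toFun g K := ∑ κ ∈ univ.filter (Reach h K), g κ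
  map_add' f g := by funext K; simp [sum_add_distrib]
  map_smul' c f := by funext K; simp [mul_sum]

/-- One move of label 0 to a later block. -/
def S : Module.End ℚ (Key h → ℚ) where
  toFun g K := ∑ l ∈ univ.filter (fun l => K.1 0 < K.1 l), g (K.swap h 0 l)
  map_add' f g := by funext K; simp [sum_add_distrib]
  map_smul' c f := by funext K; simp [mul_sum]

lemma z0_eq : z0 h = 1 + S h * z0 h := by
  refine LinearMap.ext fun g => funext fun K => ?_
  simp only [LinearMap.add_apply, Module.End.one_apply, Module.End.mul_apply, Pi.add_apply]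
  change ∑ κ ∈ univ.filter (Reach h K), g κ = g K + ∑ l ∈ univ.filter (fun l => K.1 0 < K.1 l),
    ∑ κ ∈ univ.filter (Reach h (K.swap h 0 l)), g κ
  rw [← Finset.sum_biUnion (f := g), ← Finset.sum_insert (f := g) (a := K)]
  · refine sum_congr ?_ fun _ _ => rfl
    ext κ
    simp only [mem_filter, mem_univ, true_and, mem_insert, mem_biUnion]
    constructor
    · intro hr
      by_cases e : κ = K
      · exact Or.inl e
      · exact Or.inr (reach_cases h hr e).exists
    · rintro (rfl | ⟨l, hl, hr⟩)
      · exact reach_refl h _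
      · exact (reach_step h hl hr).1
  · simp only [mem_biUnion, mem_filter, mem_univ, true_and, not_exists, not_and]
    intro l hl hr
    exact absurd (reach_step h hl hr).2 (not_le.2 hl)
  · intro l hl l' hl' hne
    simp only [coe_filter, mem_univ, true_and, Set.mem_ofPred_eq] at hl hl'
    simp only [Function.onFun, disjoint_left, mem_filter, mem_univ, true_and]
    intro κ hr hr'
    refine hne ((reach_cases h (reach_step h hl hr).1 ?_).unique ⟨hl, hr⟩ ⟨hl', hr'⟩)
    rintro rfl
    exact absurd (reach_step h hl hr).2 (not_le.2 hl)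

lemma S_pow_zero (m : ℕ) : ∀ (g : Key h → ℚ) (K : Key h),
    (univ.filter fun b => K.1 0 < b).card < m → (S h ^ m) g K = 0 := by
  induction m with
  | zero => intro g K hK; omega
  | succ m ih =>
    intro g K hK
    rw [pow_succ', Module.End.mul_apply]
    change ∑ l ∈ univ.filter (fun l => K.1 0 < K.1 l), (S h ^ m) g (K.swap h 0 l) = 0
    refine sum_eq_zero fun l hl => ?_
    simp only [mem_filter, mem_univ, true_and] at hl
    refine ih g _ ?_
    have hs : (univ.filter fun b => (K.swap h 0 l).1 0 < b)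
        ⊂ univ.filter fun b => K.1 0 < b := by
      simp only [Key.swap, Function.comp_apply, Equiv.swap_apply_left]
      refine (ssubset_iff_of_subset fun b hb => ?_).2 ⟨K.1 l, by simpa using hl, by simp⟩
      simp only [mem_filter, mem_univ, true_and] at hb ⊢
      exact hl.trans hb
    have := card_lt_card hs
    omega

lemma S_pow_n : S h ^ n = 0 := by
  refine LinearMap.ext fun g => funext fun K => ?_
  refine S_pow_zero h n g K ?_
  calc (univ.filter fun b => K.1 0 < b).card ≤ ((univ : Finset (Fin n)).erase (K.1 0)).card :=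
        card_le_card fun b hb => by simp at hb; simp [hb.ne']
    _ < n := by rw [card_erase_of_mem (mem_univ _), card_univ, Fintype.card_fin]; exact Nat.sub_lt (NeZero.pos n) one_pos

/-- `(1 - S)⁻ᵏ` as a finite series. -/
def Y (k : ℕ) : Module.End ℚ (Key h → ℚ) :=
  ∑ m ∈ range n, (Nat.multichoose k m : ℚ) • S h ^ m

lemma Y_zero : Y h 0 = 1 := by
  rw [Y, sum_eq_single 0]
  · simp
  · intro m _ hm
    obtain ⟨m, rfl⟩ := Nat.exists_eq_succ_of_ne_zero hm
    simp [Nat.multichoose_zero_succ]
  · simp [NeZero.pos n]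

lemma one_sub_S_Y (k : ℕ) : (1 - S h) * Y h (k + 1) = Y h k := by
  set D : ℕ → Module.End ℚ (Key h → ℚ) :=
    fun m => (Nat.multichoose k m : ℚ) • S h ^ m with hD
  set B : ℕ → Module.End ℚ (Key h → ℚ) :=
    fun m => (Nat.multichoose (k + 1) m : ℚ) • S h ^ m with hB
  have key : ∀ N, (1 - S h) * ∑ m ∈ range (N + 1), B m
      = ∑ m ∈ range (N + 1), D m - S h * B N := by
    intro N
    induction N with
    | zero => simp [hB, hD]
    | succ N ih =>
      rw [sum_range_succ, mul_add, ih, sum_range_succ _ (N + 1)]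
      have hp : B (N + 1) = D (N + 1) + S h * B N := by
        simp only [hB, hD]
        rw [Nat.multichoose_succ_succ, Nat.cast_add, add_smul, mul_smul_comm, ← pow_succ']
      rw [sub_mul, one_mul]
      nth_rewrite 1 [hp]
      abel
  have hN : n - 1 + 1 = n := Nat.sub_add_cancel (NeZero.pos n)
  have h2 : S h * B (n - 1) = 0 := by
    simp only [hB]
    rw [mul_smul_comm, ← pow_succ', hN, S_pow_n, smul_zero]
  have := key (n - 1)
  rw [h2, sub_zero, hN] at this
  exact this

lemma z0_pow (k : ℕ) : z0 h ^ k = Y h k := by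
  induction k with
  | zero => rw [pow_zero, Y_zero]
  | succ k ih =>
    have h1 : (1 - S h) * z0 h = 1 := by
      rw [sub_mul, one_mul]; nth_rewrite 1 [z0_eq h]; abel
    have h2 : z0 h * (1 - S h) = 1 := mul_eq_one_comm.1 h1
    calc z0 h ^ (k + 1) = z0 h * ((1 - S h) * Y h (k + 1)) := by rw [one_sub_S_Y, pow_succ', ih]
      _ = Y h (k + 1) := by rw [← mul_assoc, h2, one_mul]

/-- Weight of a block. -/
def sz (b : Fin n) : ℚ := (univ.filter fun i => h i = b).card

/-- Elementary symmetric function of the sizes of a set of blocks. -/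
def eSet (T : Finset (Fin n)) (m : ℕ) : ℚ := ∑ U ∈ T.powersetCard m, ∏ b ∈ U, sz h b

omit [NeZero n] in
lemma eSet_succ (m : ℕ) (T : Finset (Fin n)) :
    eSet h T (m + 1) = ∑ c ∈ T, sz h c * eSet h (T.filter (c < ·)) m := by
  induction T using Finset.induction_on_min with
  | empty => rw [eSet, powersetCard_eq_empty.2 (by simp), sum_empty, sum_empty]
  | insert a T hlt ih =>
    have ha : a ∉ T := fun hm => lt_irrefl a (hlt a hm)
    have hd : Disjoint (T.powersetCard (m + 1)) ((T.powersetCard m).image (insert a)) := by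
      rw [disjoint_left]
      intro U hU hU'
      obtain ⟨V, -, rfl⟩ := mem_image.1 hU'
      exact ha ((mem_powersetCard.1 hU).1 (mem_insert_self a V))
    rw [eSet, powersetCard_succ_insert ha, sum_union hd, sum_image, sum_insert ha, add_comm]
    · congr 1
      · have : (insert a T).filter (a < ·) = T := by
          rw [filter_insert, if_neg (lt_irrefl a), filter_true_of_mem hlt]
        rw [this, eSet, mul_sum]
        exact sum_congr rfl fun U hU => by
          rw [prod_insert fun hm => ha ((mem_powersetCard.1 hU).1 hm)]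
      · rw [show ∑ U ∈ T.powersetCard (m + 1), ∏ b ∈ U, sz h b = eSet h T (m + 1) from rfl, ih]
        refine sum_congr rfl fun c hc => ?_
        rw [filter_insert, if_neg (not_lt.2 (hlt c hc).le)]
    · intro U hU V hV e
      have h1 : a ∉ U := fun hm => ha ((mem_powersetCard.1 hU).1 hm)
      have h2 : a ∉ V := fun hm => ha ((mem_powersetCard.1 hV).1 hm)
      rw [← erase_insert h1, e, erase_insert h2]

lemma S_pow_one (m : ℕ) : ∀ K : Key h,
    (S h ^ m) 1 K = eSet h ((univ.image h).filter (K.1 0 < ·)) m := by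
  induction m with
  | zero => intro K; simp [eSet]
  | succ m ih =>
    intro K
    rw [pow_succ', Module.End.mul_apply]
    change ∑ l ∈ univ.filter (fun l => K.1 0 < K.1 l), (S h ^ m) 1 (K.swap h 0 l) = _
    simp only [ih, Key.swap, Function.comp_apply, Equiv.swap_apply_left]
    have hmaps : ∀ l ∈ univ.filter (fun l => K.1 0 < K.1 l),
        K.1 l ∈ (univ.image h).filter (K.1 0 < ·) := by
      intro l hl
      obtain ⟨w, rfl⟩ := key'_surj h K
      simp only [mem_filter, mem_univ, true_and] at hl
      exact mem_filter.2 ⟨mem_image.2 ⟨w.symm l, mem_univ _, rfl⟩, hl⟩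
    rw [eSet_succ, ← sum_fiberwise_of_maps_to hmaps]
    refine sum_congr rfl fun c hc => ?_
    have hc' := (mem_filter.1 hc).2
    have e : (univ.filter fun l => K.1 0 < K.1 l).filter (fun l => K.1 l = c)
        = univ.filter fun l => K.1 l = c := by
      ext l; simp only [mem_filter, mem_univ, true_and]
      exact ⟨And.right, fun e => ⟨e ▸ hc', e⟩⟩
    have e2 : ((univ.image h).filter (K.1 0 < ·)).filter (c < ·)
        = (univ.image h).filter (c < ·) := by
      ext b; simp only [mem_filter]
      exact ⟨fun hb => ⟨hb.1.1, hb.2⟩, fun hb => ⟨⟨hb.1, hc'.trans hb.2⟩, hb.2⟩⟩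
    rw [e, e2, sum_congr rfl (g := fun _ => eSet h ((univ.image h).filter (c < ·)) m)
      (fun l hl => by rw [(mem_filter.1 hl).2]), sum_const, card_fibre, sz, nsmul_eq_mul]

/-- The mean over keys. -/
def mean : (Key h → ℚ) →ₗ[ℚ] ℚ :=
  (n.factorial : ℚ)⁻¹ • ∑ w : Equiv.Perm (Fin n), LinearMap.proj (key' h w)

omit [NeZero n] in
lemma mean_apply (g : Key h → ℚ) :
    mean h g = (n.factorial : ℚ)⁻¹ * ∑ w, g (key' h w) := by
  simp [mean]

omit [NeZero n] in
lemma mean_one : mean h 1 = 1 := by
  rw [mean_apply]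
  simp [Fintype.card_perm, Nat.factorial_ne_zero]

lemma mean_zero_slot (F : Fin n → ℚ) :
    (n.factorial : ℚ)⁻¹ * ∑ w : Equiv.Perm (Fin n), F (w.symm 0) = (∑ i, F i) / n := by
  have h1 : ∀ l, ∑ w : Equiv.Perm (Fin n), F (w.symm l) = ∑ w : Equiv.Perm (Fin n), F (w.symm 0) :=
    fun l => Fintype.sum_equiv (Equiv.mulLeft (Equiv.swap 0 l)) _ _ fun w => by
      change F (w.symm l) = F (w.symm ((Equiv.swap 0 l).symm 0))
      rw [Equiv.symm_swap, Equiv.swap_apply_left]
  have h2 : (n : ℚ) * ∑ w : Equiv.Perm (Fin n), F (w.symm 0) = n.factorial * ∑ i, F i := by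
    calc (n : ℚ) * ∑ w : Equiv.Perm (Fin n), F (w.symm 0)
        = ∑ l, ∑ w : Equiv.Perm (Fin n), F (w.symm l) := by simp [h1]
      _ = _ := by
          rw [sum_comm]
          simp [Equiv.sum_comp, Fintype.card_perm]
  have hn : (n : ℚ) ≠ 0 := Nat.cast_ne_zero.2 (NeZero.ne n)
  have hf : (n.factorial : ℚ) ≠ 0 := Nat.cast_ne_zero.2 (Nat.factorial_ne_zero n)
  field_simp
  linarith

lemma mean_z0_pow (k : ℕ) : mean h ((z0 h ^ k) 1) = val n (blocks h) k := by
  have hm : ∀ m, mean h ((S h ^ m) 1) = ((blocks h).esymm (m + 1) : ℚ) / n := by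
    intro m
    rw [mean_apply]
    simp only [S_pow_one, key', key, Function.comp_apply]
    rw [mean_zero_slot (fun i => eSet h ((univ.image h).filter (h i < ·)) m)]
    congr 1
    rw [blocks, Finset.esymm_map_val, Nat.cast_sum]
    simp only [Nat.cast_prod]
    change _ = eSet h (univ.image h) (m + 1)
    rw [eSet_succ, ← sum_fiberwise_of_maps_to (g := h) (t := univ.image h)
      (fun i _ => mem_image_of_mem _ (mem_univ i))]
    refine sum_congr rfl fun c _ => ?_
    rw [sum_congr rfl (g := fun _ => eSet h ((univ.image h).filter (c < ·)) m)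
      (fun i hi => by rw [(mem_filter.1 hi).2]), sum_const, sz, nsmul_eq_mul]
  rw [z0_pow, Y]
  simp only [LinearMap.sum_apply, LinearMap.smul_apply, map_sum, map_smul, hm, smul_eq_mul, val,
    sum_div]
  exact sum_congr rfl fun m _ => by ring

end Vale.Agent.P066.Z.Base
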