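import Vale.Agent.P066.Z.Base.Staircase

/-!
# P066, module G: Z multiplies through the staircase

For a disjoint union of cliques, in each coset the kernel of Z sums a staircase monomial to its
value at the starting point (Lagrange interpolation, slot by slot).
-/

noncomputable section

namespace Vale.Agent.P066.Z.Base

open Finset MvPolynomial
open scoped Classical

variable {n : ℕ} {h : Fin n → Fin n}

lemma tK_injective : Function.Injective (tK (n := n)) := fun _ _ e =>
  X_injective (IsFractionRing.injective (P n) (K n) e)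

lemma ker_eq (hh : IsHess h) (w v : Equiv.Perm (Fin n)) :
    ker h w v = ∏ i, ∏ c ∈ Ioc i (h i), (tK (v c) - tK (w i)) / (tK (v c) - tK (v i)) := by
  have _ := hh
  rw [ker, edges, prod_filter, Fintype.prod_prod_type]
  refine prod_congr rfl fun i _ => ?_
  rw [← prod_filter]
  refine prod_congr ?_ fun _ _ => rfl
  ext c
  rw [mem_filter, mem_Ioc]
  exact ⟨fun e => e.2, fun e => ⟨mem_univ _, e⟩⟩

lemma lagrange_pow {F : Type} [Field F] {ι : Type} [DecidableEq ι] (J : Finset ι) (x : ι → F)
    (hx : Set.InjOn x J) (z : F) (e : ℕ) (he : e < J.card) :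
    ∑ j ∈ J, x j ^ e * ∏ c ∈ J.erase j, (x c - z) / (x c - x j) = z ^ e := by
  have h := congrArg (Polynomial.eval z)
    (Lagrange.eq_interpolate (f := (Polynomial.X : Polynomial F) ^ e) hx
      (by rw [Polynomial.degree_X_pow]; exact_mod_cast he))
  rw [Lagrange.interpolate_apply, Polynomial.eval_finsetSum] at h
  simp only [Polynomial.eval_pow, Polynomial.eval_X, Polynomial.eval_mul, Polynomial.eval_C,
    Lagrange.basis, Polynomial.eval_prod, Lagrange.basisDivisor, Polynomial.eval_sub] at h
  refine Eq.trans (sum_congr rfl fun j _ => ?_) h.symm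
  congr 1
  refine prod_congr rfl fun c _ => ?_
  rw [← neg_sub z (x c), ← neg_sub (x j) (x c), neg_div_neg_eq, div_eq_inv_mul]

variable [NeZero n] (hh : IsHess h) (hc : CliqueUnion h)

include hh hc

lemma slot_sum (w : Equiv.Perm (Fin n)) (α : Exp h) : ∀ d k : ℕ, k + d = n →
    ∀ v0 : Equiv.Perm (Fin n), Reach h (key' h w) (key' h v0) →
      (∀ m i : Fin n, i ≤ m → m.val < k → w i ≠ 0 → ∃ j, j ≤ m ∧ v0 j = w i) →
      ∑ v ∈ univ.filter (fun v => Compat w v ∧ Pre h k v0 v),
          ∏ i ∈ univ.filter (fun i : Fin n => k ≤ i.val), (tK (v i) ^ (α i).val *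
            ∏ c ∈ Ioc i (h i), (tK (v c) - tK (w i)) / (tK (v c) - tK (v i)))
        = ∏ i ∈ univ.filter (fun i : Fin n => k ≤ i.val), tK (w i) ^ (α i).val := by
  intro d
  induction d with
  | zero =>
    intro k hk v0 _ hpc
    obtain rfl : k = n := by omega
    have e0 : univ.filter (fun i : Fin k => k ≤ i.val) = ∅ :=
      filter_false_of_mem fun i _ => not_le.2 i.isLt
    have e1 : univ.filter (fun v => Compat w v ∧ Pre h k v0 v) = {v0} := by
      ext v
      simp only [mem_filter, mem_univ, true_and, mem_singleton]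
      refine ⟨fun e => (Equiv.ext fun i => (e.2.2 i i.isLt).symm), ?_⟩
      rintro rfl
      exact ⟨fun m i him hwi => hpc m i him m.isLt hwi, rfl, fun _ _ => rfl⟩
    simp [e0, e1]
  | succ d ih =>
    intro k hk v0 hr hpc
    set K : Fin n := ⟨k, by omega⟩ with hK
    set J := Icc K (h K) with hJ
    set F : Equiv.Perm (Fin n) → Fin n → Vale.Agent.P066.Z.K n := fun v i => tK (v i) ^ (α i).val *
      ∏ c ∈ Ioc i (h i), (tK (v c) - tK (w i)) / (tK (v c) - tK (v i)) with hF
    have hsplit : univ.filter (fun i : Fin n => k ≤ i.val)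
        = insert K (univ.filter fun i : Fin n => k + 1 ≤ i.val) := by
      ext i; simp only [mem_filter, mem_univ, true_and, mem_insert, Fin.ext_iff, hK]; omega
    have hKn : K ∉ univ.filter (fun i : Fin n => k + 1 ≤ i.val) := by simp [hK]
    set R := ∏ i ∈ univ.filter (fun i : Fin n => k + 1 ≤ i.val), tK (w i) ^ (α i).val with hR
    set good : Fin n → Prop := fun j =>
      w K = 0 ∨ (∃ i : Fin n, i.val < k ∧ v0 i = w K) ∨ v0 j = w K with hgood
    have hmaps : ∀ v ∈ univ.filter (fun v => Compat w v ∧ Pre h k v0 v),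
        v0.symm (v K) ∈ J := by
      intro v hv
      have e := (mem_filter.1 hv).2.2.slot (i := K) le_rfl
      exact (mem_Icc_block hh hc).2 ⟨e.1, e.2⟩
    have hterm : ∀ j ∈ J,
        ∑ v ∈ (univ.filter (fun v => Compat w v ∧ Pre h k v0 v)).filter
            (fun v => v0.symm (v K) = j),
          ∏ i ∈ univ.filter (fun i : Fin n => k ≤ i.val), F v i
        = if good j then tK (v0 j) ^ (α K).val *
            (∏ c ∈ J.erase j, (tK (v0 c) - tK (w K)) / (tK (v0 c) - tK (v0 j))) * R
          else 0 := by
      intro j hj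
      obtain ⟨hKj, hblk⟩ := (mem_Icc_block hh hc).1 hj
      have hp : Pre h k (v0 * Equiv.swap K j) v0 := pre_swap v0 le_rfl hKj hblk.symm
      by_cases hg : good j
      · rw [if_pos hg]
        have hset : (univ.filter (fun v => Compat w v ∧ Pre h k v0 v)).filter
            (fun v => v0.symm (v K) = j)
            = univ.filter (fun v => Compat w v ∧ Pre h (k + 1) (v0 * Equiv.swap K j) v) := by
          ext v
          simp only [mem_filter, mem_univ, true_and]
          constructor
          · rintro ⟨⟨h1, h2⟩, rfl⟩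
            refine ⟨h1, (hp.trans h2).1, fun l hl => ?_⟩
            by_cases e : l = K
            · subst e; simp
            · exact (hp.trans h2).2 l
                (lt_of_le_of_ne (Nat.lt_succ_iff.1 hl) fun e' => e (Fin.ext e'))
          · rintro ⟨h1, h2⟩
            refine ⟨⟨h1, hp.symm.trans (h2.mono (Nat.le_succ k))⟩, ?_⟩
            rw [← h2.2 K (Nat.lt_succ_self k)]; simp
        have hr' : Reach h (key' h w) (key' h (v0 * Equiv.swap K j)) := by
          intro l hl
          have e : key' h (v0 * Equiv.swap K j) = key' h v0 := Subtype.ext hp.1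
          rw [e]; exact hr l hl
        have hpc' : ∀ m i : Fin n, i ≤ m → m.val < k + 1 → w i ≠ 0 →
            ∃ j', j' ≤ m ∧ (v0 * Equiv.swap K j) j' = w i := by
          intro m i him hm hwi
          have hlow : ∀ l : Fin n, l.val < k → (v0 * Equiv.swap K j) l = v0 l := fun l hl => hp.2 l hl
          by_cases hik : i.val < k
          · obtain ⟨j', h1, h2⟩ := hpc i i le_rfl hik hwi
            exact ⟨j', h1.trans him, by rw [hlow j' (lt_of_le_of_lt h1 hik), h2]⟩
          · have hiK : i = K := Fin.ext (by simp only [hK]; have : i.val ≤ m.val := him; omega)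
            subst hiK
            rcases hg with hg | ⟨l, hl, hl'⟩ | hg
            · exact absurd hg hwi
            · exact ⟨l, le_trans (Fin.le_def.2 (by simp only [hK]; omega)) him,
                by rw [hlow l hl, hl']⟩
            · exact ⟨K, him, by simp [hg]⟩
        rw [hset, show (∑ v ∈ univ.filter (fun v => Compat w v ∧
            Pre h (k + 1) (v0 * Equiv.swap K j) v),
              ∏ i ∈ univ.filter (fun i : Fin n => k ≤ i.val), F v i)
          = (tK (v0 j) ^ (α K).val *
              ∏ c ∈ J.erase j, (tK (v0 c) - tK (w K)) / (tK (v0 c) - tK (v0 j))) *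
            ∑ v ∈ univ.filter (fun v => Compat w v ∧ Pre h (k + 1) (v0 * Equiv.swap K j) v),
              ∏ i ∈ univ.filter (fun i : Fin n => k + 1 ≤ i.val), F v i from ?_,
          ih (k + 1) (by omega) _ hr' hpc']
        rw [mul_sum]
        refine sum_congr rfl fun v hv => ?_
        obtain ⟨-, h2⟩ := (mem_filter.1 hv).2
        rw [hsplit, prod_insert hKn]
        congr 1
        have hvK : v K = v0 j := by rw [← h2.2 K (Nat.lt_succ_self k)]; simp
        simp only [hF, hvK]
        congr 1
        have pv : Pre h k v v0 := (h2.symm.mono (Nat.le_succ k)).trans hp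
        refine prod_bij' (fun c _ => v0.symm (v c)) (fun c _ => v.symm (v0 c)) ?_ ?_ ?_ ?_ ?_
        · intro c hc'
          have hcK : K < c := (mem_Ioc.1 hc').1
          have e := pv.symm.slot (i := c) hcK.le
          refine mem_erase.2 ⟨fun e' => hcK.ne' (v.injective ?_), (mem_Icc_block hh hc).2
            ⟨e.1, e.2.trans (hc K c hcK.le (mem_Ioc.1 hc').2)⟩⟩
          rw [hvK, ← e', Equiv.apply_symm_apply]
        · intro c hc'
          obtain ⟨hne, hmem⟩ := mem_erase.1 hc'
          obtain ⟨a1, a2⟩ := (mem_Icc_block hh hc).1 hmem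
          have e := pv.slot (i := c) a1
          obtain ⟨b1, b2⟩ := mem_Icc.1 ((mem_Icc_block hh hc).2 ⟨e.1, e.2.trans a2⟩)
          refine mem_Ioc.2 ⟨lt_of_le_of_ne b1 fun e' => hne (v0.injective ?_), b2⟩
          rw [← hvK, e', Equiv.apply_symm_apply]
        · intro c _; simp
        · intro c _; simp
        · intro c _; simp
      · rw [if_neg hg]
        refine sum_eq_zero fun v hv => absurd ?_ hg
        obtain ⟨hv', hvj⟩ := mem_filter.1 hv
        obtain ⟨h1, h2⟩ := (mem_filter.1 hv').2
        by_cases hw : w K = 0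
        · exact Or.inl hw
        obtain ⟨l, hl, hl'⟩ := h1 K K le_rfl hw
        rcases lt_or_eq_of_le hl with hl | hl
        · exact Or.inr (Or.inl ⟨l, hl, by rw [h2.2 l hl, hl']⟩)
        · exact Or.inr (Or.inr (by rw [← hvj, Equiv.apply_symm_apply, ← hl', hl]))
    rw [← sum_fiberwise_of_maps_to hmaps, sum_congr rfl hterm, hsplit, prod_insert hKn, ← hR,
      ← sum_filter, ← sum_mul]
    congr 1
    have hx : Set.InjOn (fun c => tK (v0 c)) J :=
      fun a _ b _ e => v0.injective (tK_injective e)
    by_cases hfree : w K = 0 ∨ ∃ i : Fin n, i.val < k ∧ v0 i = w K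
    · rw [filter_true_of_mem fun j _ => hfree.elim Or.inl fun e => Or.inr (Or.inl e)]
      refine lagrange_pow J (fun c => tK (v0 c)) hx (tK (w K)) (α K).val ?_
      rw [hJ, Fin.card_Icc]
      have := (α K).isLt
      have : K.val ≤ (h K).val := hh.le K
      omega
    · rw [not_or, not_exists] at hfree
      set j0 := v0.symm (w K) with hj0
      have hmem : j0 ∈ J := by
        have hge : k ≤ j0.val := by
          by_contra hlt
          exact hfree.2 j0 ⟨not_le.1 hlt, v0.apply_symm_apply _⟩
        have hle : h j0 ≤ h K := by simpa [key', key] using hr (w K) hfree.1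
        exact (mem_Icc_block hh hc).2 ⟨hge, le_antisymm hle (hh.mono hge)⟩
      have hv0 : v0 j0 = w K := v0.apply_symm_apply _
      have e : J.filter good = {j0} := by
        ext j
        simp only [mem_filter, mem_singleton, hgood]
        constructor
        · rintro ⟨-, h' | h' | h'⟩
          · exact absurd h' hfree.1
          · exact absurd h'.choose_spec (hfree.2 _)
          · exact v0.injective (h'.trans hv0.symm)
        · rintro rfl; exact ⟨hmem, Or.inr (Or.inr hv0)⟩
      rw [e, sum_singleton, hv0, prod_eq_one fun c hc' => ?_, mul_one]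
      refine div_self (sub_ne_zero.2 fun e' => ?_)
      exact (mem_erase.1 hc').1 (v0.injective ((tK_injective e').trans hv0.symm))

lemma coset_sum (w : Equiv.Perm (Fin n)) (α : Exp h) (κ : Key h)
    (hr : Reach h (key' h w) κ) :
    ∑ v ∈ univ.filter (fun v => Compat w v ∧ key' h v = κ),
      ker h w v * algebraMap (P n) (Vale.Agent.P066.Z.K n) (mon h α v)
      = algebraMap (P n) (Vale.Agent.P066.Z.K n) (mon h α w) := by
  obtain ⟨v0, rfl⟩ := key'_surj h κ
  have key0 := slot_sum hh hc w α n 0 (by omega) v0 hr (fun m _ _ hm => absurd hm (Nat.not_lt_zero _))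
  have e : univ.filter (fun i : Fin n => 0 ≤ i.val) = univ := filter_true_of_mem fun _ _ => Nat.zero_le _
  rw [e] at key0
  have hm : ∀ v, algebraMap (P n) (Vale.Agent.P066.Z.K n) (mon h α v)
      = ∏ i, tK (v i) ^ (α i).val := fun v => by simp [mon, tK]
  rw [hm]
  refine Eq.trans (sum_congr ?_ fun v _ => ?_) key0
  · ext v
    rw [mem_filter, mem_filter]
    refine and_congr_right fun _ => and_congr_right fun _ => ?_
    exact ⟨fun e => ⟨(congrArg Subtype.val e).symm, fun i hi => absurd hi (Nat.not_lt_zero _)⟩,
      fun e => Subtype.ext e.1.symm⟩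
  · rw [ker_eq hh, hm, ← prod_mul_distrib]
    exact prod_congr rfl fun i _ => mul_comm _ _

lemma reach_of_compat {w v : Equiv.Perm (Fin n)} (e : Compat w v) :
    Reach h (key' h w) (key' h v) := by
  have _ := hc
  intro l hl
  obtain ⟨j, hj, hj'⟩ := e (w.symm l) (w.symm l) le_rfl (by simpa using hl)
  rw [Equiv.apply_symm_apply] at hj'
  have : v.symm l = j := by rw [← hj', Equiv.symm_apply_apply]
  simpa [key', key, this] using hh.mono hj

/-- Z on a staircase combination of functions of keys. -/
lemma ZK_stair (c : Exp h → Key h → P n) (w : Equiv.Perm (Fin n)) :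
    ZK h (fun v => ∑ α, c α (key' h v) * mon h α v) w
      = algebraMap (P n) (Vale.Agent.P066.Z.K n)
          (∑ α, (∑ κ ∈ univ.filter (Reach h (key' h w)), c α κ) * mon h α w) := by
  simp only [ZK, LinearMap.coe_mk, AddHom.coe_mk, map_sum, map_mul, mul_sum, sum_mul]
  rw [sum_comm]
  refine sum_congr rfl fun α _ => ?_
  rw [← sum_fiberwise_of_maps_to (g := key' h) (t := univ.filter (Reach h (key' h w)))
    (fun v hv => mem_filter.2 ⟨mem_univ _, reach_of_compat hh hc (mem_filter.1 hv).2⟩)]
  refine sum_congr rfl fun κ hκ => ?_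
  rw [← coset_sum hh hc w α κ (mem_filter.1 hκ).2, mul_sum, filter_filter]
  refine sum_congr rfl fun v hv => ?_
  rw [(mem_filter.1 hv).2.2]
  ring

end Vale.Agent.P066.Z.Base
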