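import Vale.Agent.P066.Z.Base.Combin

/-!
# P066, module G: staircase monomials

For a disjoint union of cliques, the monomials `∏ i, X (w i) ^ α i` with `α i ≤ h i - i` times the
functions of keys form a basis of the GKM module.
-/

noncomputable section

namespace Vale.Agent.P066.Z.Base

open Finset MvPolynomial
open scoped Classical

variable {n : ℕ} {h : Fin n → Fin n}

lemma adj_iff (hh : IsHess h) (hc : CliqueUnion h) {i j : Fin n} :
    Adj h i j ↔ i < j ∧ h i = h j :=
  ⟨fun e => ⟨e.1, (hc i j e.1.le e.2).symm⟩, fun e => ⟨e.1, e.2 ▸ hh.le j⟩⟩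

/-- Identification of two variables. -/
def idn (a b : Fin n) : P n →ₐ[ℚ] P n := aeval fun l => if l = b then X a else X l

lemma idn_X (a b l : Fin n) : idn a b (X l) = if l = b then X a else X l := by simp [idn]

lemma dvd_iff_idn {a b : Fin n} {p : P n} : X a - X b ∣ p ↔ idn a b p = 0 := by
  have key : ∀ q : P n, X a - X b ∣ q - idn a b q := by
    intro q
    induction q using MvPolynomial.induction_on with
    | C c => simp [idn]
    | add p q hp hq => simpa [add_sub_add_comm] using dvd_add hp hq
    | mul_X p l hp =>
      have e : p * X l - idn a b (p * X l)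
          = (p - idn a b p) * X l + idn a b p * (X l - idn a b (X l)) := by rw [map_mul]; ring
      rw [e]
      refine dvd_add (hp.mul_right _) (Dvd.dvd.mul_left ?_ _)
      rw [idn_X]
      split_ifs with hl
      · subst hl; exact ⟨-1, by ring⟩
      · simp
  constructor
  · rintro ⟨q, rfl⟩
    rw [map_mul, map_sub, idn_X, idn_X, if_pos rfl]
    split_ifs <;> simp
  · intro h0
    simpa [h0] using key p

lemma idn_injective {a b l l' : Fin n} (h1 : l ≠ a) (h2 : l' ≠ a)
    (e : idn a b (X l) = idn a b (X l')) : l = l' := by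
  rw [idn_X, idn_X] at e
  split_ifs at e with x y z
  · rw [x, y]
  · exact absurd (X_injective e).symm h2
  · exact absurd (X_injective e) h1
  · exact X_injective e

variable (h)

/-- The exponents of the staircase. -/
abbrev Exp := ∀ i : Fin n, Fin ((h i).val - i.val + 1)

/-- The degree of an exponent. -/
def wt (α : Exp h) : ℕ := ∑ i, (α i).val

/-- The staircase monomial of an exponent. -/
def mon (α : Exp h) (w : Equiv.Perm (Fin n)) : P n := ∏ i, X (w i) ^ (α i).val

/-- The exponent vanishes below `k`. -/
def Sup (k : ℕ) (α : Exp h) : Prop := ∀ i, i.val < k → α i = 0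

/-- The same key and the same first `k` slots. -/
def Pre (k : ℕ) (w v : Equiv.Perm (Fin n)) : Prop :=
  key h w = key h v ∧ ∀ i : Fin n, i.val < k → w i = v i

variable {h}

lemma Pre.symm {k : ℕ} {w v : Equiv.Perm (Fin n)} (e : Pre h k w v) : Pre h k v w :=
  ⟨e.1.symm, fun i hi => (e.2 i hi).symm⟩

lemma Pre.trans {k : ℕ} {w v u : Equiv.Perm (Fin n)} (e : Pre h k w v) (e' : Pre h k v u) :
    Pre h k w u := ⟨e.1.trans e'.1, fun i hi => (e.2 i hi).trans (e'.2 i hi)⟩

lemma Pre.mono {k k' : ℕ} (hk : k' ≤ k) {w v : Equiv.Perm (Fin n)} (e : Pre h k w v) :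
    Pre h k' w v := ⟨e.1, fun i hi => e.2 i (hi.trans_le hk)⟩

lemma Pre.slot {k : ℕ} {w v : Equiv.Perm (Fin n)} (e : Pre h k w v) {i : Fin n}
    (hi : k ≤ i.val) :
    k ≤ (w.symm (v i)).val ∧ h (w.symm (v i)) = h i := by
  refine ⟨?_, by simpa [key] using congrFun e.1 (v i)⟩
  by_contra hlt
  have h1 := e.2 _ (not_le.1 hlt)
  rw [Equiv.apply_symm_apply] at h1
  have h2 : i = w.symm (v i) := v.injective h1
  omega

lemma key_mul_swap (w : Equiv.Perm (Fin n)) {i j : Fin n} (e : h i = h j) :
    key h (w * Equiv.swap i j) = key h w := by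
  funext l
  change h (Equiv.swap i j (w.symm l)) = h (w.symm l)
  rw [Equiv.swap_apply_def]
  split_ifs with h1 h2
  · rw [h1, e]
  · rw [h2, e]
  · rfl

lemma pre_swap {k : ℕ} (w : Equiv.Perm (Fin n)) {i j : Fin n} (hi : k ≤ i.val) (hj : k ≤ j.val)
    (e : h i = h j) : Pre h k (w * Equiv.swap i j) w := by
  refine ⟨key_mul_swap w e, fun l hl => ?_⟩
  rw [Equiv.Perm.mul_apply, Equiv.swap_apply_of_ne_of_ne]
  · rintro rfl; omega
  · rintro rfl; omega

lemma sum_split (K : Fin n) {A : Type} [AddCommMonoid A] (F : Exp h → A) :
    ∑ α, F α = ∑ β ∈ univ.filter (fun β : Exp h => β K = 0),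
      ∑ e, F (Function.update β K e) := by
  rw [← sum_product']
  refine sum_nbij' (fun α => (Function.update α K 0, α K))
    (fun p => Function.update p.1 K p.2) ?_ ?_ ?_ ?_ ?_
  · intro α _; simp
  · intro p _; simp
  · intro α _; simp
  · rintro ⟨β, e⟩ hb
    have hb' : β K = 0 := (mem_filter.1 (mem_product.1 hb).1).2
    simp [← hb']
  · intro α _; simp

lemma prod_update {A : Type} [CommMonoid A] (x : Fin n → A) (K : Fin n) (β : Exp h)
    (hb : β K = 0) (e : Fin ((h K).val - K.val + 1)) :
    ∏ i, x i ^ (Function.update β K e i).val = x K ^ e.val * ∏ i, x i ^ (β i).val := by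
  rw [← mul_prod_erase univ _ (mem_univ K), ← mul_prod_erase univ (fun i => x i ^ (β i).val)
    (mem_univ K)]
  simp only [Function.update_self, hb, Fin.val_zero, pow_zero, one_mul]
  congr 1
  exact prod_congr rfl fun i hi => by rw [Function.update_of_ne (ne_of_mem_erase hi)]

variable (hh : IsHess h) (hc : CliqueUnion h)

include hh hc

lemma mem_Icc_block {K j : Fin n} : j ∈ Icc K (h K) ↔ K ≤ j ∧ h j = h K := by
  rw [mem_Icc]
  exact ⟨fun e => ⟨e.1, hc K j e.1 e.2⟩, fun e => ⟨e.1, e.2 ▸ hh.le j⟩⟩

/-- Linear independence of the staircase, over any domain separating each block. -/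
lemma unique_step {R : Type} [CommRing R] [IsDomain R] (x : Fin n → R) :
    ∀ d k : ℕ, k + d = n → ∀ (w0 : Equiv.Perm (Fin n)) (a : Exp h → R),
      (∀ α, ¬ Sup h k α → a α = 0) →
      (∀ i j : Fin n, k ≤ i.val → k ≤ j.val → h i = h j → x (w0 i) = x (w0 j) → i = j) →
      (∀ v, Pre h k w0 v → ∑ α, a α * ∏ i, x (v i) ^ (α i).val = 0) → ∀ α, a α = 0 := by
  intro d
  induction d with
  | zero =>
    intro k hk w0 a hs _ hv α
    obtain rfl : k = n := by omega
    have hz : ∀ β : Exp h, β ≠ 0 → a β = 0 := fun β hb =>
      hs β fun hS => hb (funext fun i => hS i i.isLt)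
    by_cases e : α = 0
    · subst e
      have := hv w0 ⟨rfl, fun _ _ => rfl⟩
      rw [sum_eq_single 0 (fun β _ hb => by rw [hz β hb, zero_mul]) (by simp)] at this
      simpa using this
    · exact hz α e
  | succ d ih =>
    intro k hk w0 a hs hinj hv
    set K : Fin n := ⟨k, by omega⟩ with hK
    suffices h0 : ∀ β : Exp h, β K = 0 → Sup h (k + 1) β →
        ∀ e, a (Function.update β K e) = 0 by
      intro α
      by_cases hS : Sup h k α
      · have := h0 (Function.update α K 0) (Function.update_self _ _ _) (fun i hi => by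
          by_cases e : i = K
          · subst e; exact Function.update_self _ _ _
          · rw [Function.update_of_ne e]
            exact hS i (lt_of_le_of_ne (by omega) fun e' => e (Fin.ext e'))) (α K)
        simpa using this
      · exact hs α hS
    intro β hb hS
    set Q : Polynomial R :=
      ∑ e, Polynomial.C (a (Function.update β K e)) * Polynomial.X ^ e.val with hQ
    have hroot : ∀ j ∈ Icc K (h K), Q.eval (x (w0 j)) = 0 := by
      intro j hj
      obtain ⟨hKj, hblk⟩ := (mem_Icc_block hh hc).1 hj
      have hKj' : k ≤ j.val := hKj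
      have hp : Pre h k (w0 * Equiv.swap K j) w0 := pre_swap w0 le_rfl hKj' hblk.symm
      have key0 := ih (k + 1) (by omega) (w0 * Equiv.swap K j)
        (fun γ => if γ K = 0 ∧ Sup h (k + 1) γ then
          ∑ e, a (Function.update γ K e) * x (w0 j) ^ e.val else 0)
        (fun γ hγ => if_neg fun e => hγ e.2) ?_ ?_ β
      · simp only [if_pos (And.intro hb hS)] at key0
        rw [hQ, Polynomial.eval_finsetSum]
        simpa using key0
      · intro p q hp' hq' hpq e
        simp only [Equiv.Perm.mul_apply] at e
        have h1 : ∀ r : Fin n, k + 1 ≤ r.val →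
            k ≤ (Equiv.swap K j r).val ∧ h (Equiv.swap K j r) = h r := by
          intro r hr
          rw [Equiv.swap_apply_def]
          split_ifs with e1 e2
          · exact ⟨hKj', e1 ▸ hblk⟩
          · exact ⟨le_rfl, e2 ▸ hblk.symm⟩
          · exact ⟨by omega, rfl⟩
        obtain ⟨a1, b1⟩ := h1 p hp'
        obtain ⟨a2, b2⟩ := h1 q hq'
        exact (Equiv.swap K j).injective (hinj _ _ a1 a2 (b1.trans (hpq.trans b2.symm)) e)
      · intro v hv'
        have hvK : v K = w0 j := by
          rw [← hv'.2 K (Nat.lt_succ_self k)]; simp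
        have := hv v (hp.symm.trans (hv'.mono (Nat.le_succ k)))
        rw [sum_split K] at this
        refine Eq.trans ?_ this
        rw [← sum_subset (subset_univ (univ.filter fun γ : Exp h => γ K = 0))
          fun γ _ hγ => by
            rw [if_neg fun e => hγ (mem_filter.2 ⟨mem_univ _, e.1⟩), zero_mul]]
        refine sum_congr rfl fun γ hγ => ?_
        have hγ0 : γ K = 0 := (mem_filter.1 hγ).2
        simp only [prod_update (fun i => x (v i)) K γ hγ0, hvK]
        by_cases hS' : Sup h (k + 1) γ
        · rw [if_pos ⟨hγ0, hS'⟩, sum_mul]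
          exact sum_congr rfl fun e _ => by ring
        · rw [if_neg (fun e => hS' e.2), zero_mul]
          symm
          refine sum_eq_zero fun e _ => ?_
          rw [hs _ fun hS'' => hS' fun i hi => ?_, zero_mul]
          by_cases e' : i = K
          · exact e' ▸ hγ0
          · have := hS'' i (lt_of_le_of_ne (by omega) fun e'' => e' (Fin.ext e''))
            rwa [Function.update_of_ne e'] at this
    have hQ0 : Q = 0 := by
      refine Polynomial.eq_zero_of_natDegree_lt_card_of_eval_eq_zero' Q
        ((Icc K (h K)).image fun j => x (w0 j)) ?_ ?_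
      · intro y hy
        obtain ⟨j, hj, rfl⟩ := mem_image.1 hy
        exact hroot j hj
      · rw [card_image_of_injOn, Fin.card_Icc]
        · have : Q.natDegree ≤ (h K).val - K.val :=
            Polynomial.natDegree_sum_le_of_forall_le _ _ fun e _ =>
              (Polynomial.natDegree_C_mul_X_pow_le _ _).trans (Nat.lt_succ_iff.1 e.isLt)
          have : K.val ≤ (h K).val := hh.le K
          omega
        · intro i hi j hj e
          obtain ⟨a1, b1⟩ := (mem_Icc_block hh hc).1 (mem_coe.1 hi)
          obtain ⟨a2, b2⟩ := (mem_Icc_block hh hc).1 (mem_coe.1 hj)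
          exact hinj i j a1 a2 (b1.trans b2.symm) e
    intro e
    have hco := congrArg (fun q => Polynomial.coeff q e.val) hQ0
    simp only [hQ, Polynomial.finsetSum_coeff, Polynomial.coeff_C_mul_X_pow,
      Polynomial.coeff_zero] at hco
    rwa [sum_eq_single e (fun e' _ hne => if_neg fun q => hne (Fin.ext q.symm))
      (by simp), if_pos rfl] at hco

omit hh hc in
lemma interp (L : Finset (Fin n)) : ∀ G : Fin n → P n,
    (∀ a ∈ L, ∀ b ∈ L, X a - X b ∣ G a - G b) →
    ∃ Q : Polynomial (P n), (∀ e, L.card ≤ e → Q.coeff e = 0) ∧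
      ∀ a ∈ L, Q.eval (X a) = G a := by
  induction L using Finset.induction_on with
  | empty => intro G _; exact ⟨0, by simp, by simp⟩
  | insert c s hcs ih =>
    intro G hG
    have hd : ∀ a, ∃ q, a ∈ s → G a - G c = (X a - X c) * q := fun a => by
      by_cases ha : a ∈ s
      · obtain ⟨q, hq⟩ := hG a (mem_insert_of_mem ha) c (mem_insert_self c s)
        exact ⟨q, fun _ => hq⟩
      · exact ⟨0, fun e => absurd e ha⟩
    choose D hD using hd
    obtain ⟨Q, hQ1, hQ2⟩ := ih D fun a ha b hb => by
      by_cases hab : a = b
      · subst hab; simp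
      rw [dvd_iff_idn]
      have h0 : idn a b ((X a - X c) * (D a - D b)) = 0 := by
        rw [← dvd_iff_idn,
          show (X a - X c) * (D a - D b) = (G a - G b) - (X a - X b) * D b by
            linear_combination (hD b hb) - (hD a ha)]
        exact dvd_sub (hG a (mem_insert_of_mem ha) b (mem_insert_of_mem hb)) (dvd_mul_right _ _)
      rw [map_mul, map_sub _ (X a), idn_X, idn_X, if_neg hab,
        if_neg fun e : c = b => hcs (e ▸ hb)] at h0
      refine (mul_eq_zero.1 h0).resolve_left (sub_ne_zero.2 fun e => ?_)
      exact hcs (X_injective e ▸ ha)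
    refine ⟨Polynomial.C (G c) + (Polynomial.X - Polynomial.C (X c)) * Q, fun e he => ?_,
      fun a ha => ?_⟩
    · rw [card_insert_of_notMem hcs] at he
      obtain ⟨e, rfl⟩ : ∃ e', e = e' + 1 := ⟨e - 1, by omega⟩
      simp [sub_mul, hQ1 e (by omega), hQ1 (e + 1) (by omega)]
    · rcases mem_insert.1 ha with rfl | ha
      · simp
      · simp [hQ2 a ha, ← hD a ha]

omit hh hc in
/-- A chosen interpolation polynomial. -/
lemma interpQ_exists (L : Finset (Fin n)) (G : Fin n → P n) :
    ∃ Q : Polynomial (P n), (∀ a ∈ L, ∀ b ∈ L, X a - X b ∣ G a - G b) →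
      (∀ e, L.card ≤ e → Q.coeff e = 0) ∧ ∀ a ∈ L, Q.eval (X a) = G a := by
  by_cases hG : ∀ a ∈ L, ∀ b ∈ L, X a - X b ∣ G a - G b
  · obtain ⟨Q, hQ⟩ := interp L G hG
    exact ⟨Q, fun _ => hQ⟩
  · exact ⟨0, fun e => absurd e hG⟩

/-- Every element of the GKM module is a staircase combination of functions of keys. -/
lemma span_step {f : Fn n} (hf : f ∈ M h) : ∀ d k : ℕ, k + d = n →
    ∃ c : Exp h → Fn n, (∀ α w v, Pre h k w v → c α w = c α v) ∧
      (∀ α, ¬ Sup h k α → c α = 0) ∧ ∀ w, f w = ∑ α, c α w * mon h α w := by
  intro d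
  induction d with
  | zero =>
    intro k hk
    obtain rfl : k = n := by omega
    refine ⟨fun α => if α = 0 then f else 0, fun α w v e => ?_, fun α hS => if_neg ?_, fun w => ?_⟩
    · rw [show w = v from Equiv.ext fun i => e.2 i i.isLt]
    · rintro rfl; exact hS fun _ _ => rfl
    · rw [sum_eq_single 0 (fun β _ hb => by simp [hb]) (by simp)]
      simp [mon]
  | succ d ih =>
    intro k hk
    obtain ⟨c, hinv, hsup, hfc⟩ := ih (k + 1) (by omega)
    set K : Fin n := ⟨k, by omega⟩ with hK
    set L : Equiv.Perm (Fin n) → Finset (Fin n) := fun w => (Icc K (h K)).image w with hL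
    set G : Exp h → Equiv.Perm (Fin n) → Fin n → P n := fun α w a =>
      if a ∈ L w then c α (w * Equiv.swap K (w.symm a)) else 0 with hG
    have hLmem : ∀ w a, a ∈ L w ↔ k ≤ (w.symm a).val ∧ h (w.symm a) = h K := by
      intro w a
      simp only [hL, mem_image, mem_Icc_block hh hc]
      constructor
      · rintro ⟨j, hj, rfl⟩; rw [Equiv.symm_apply_apply]; exact ⟨hj.1, hj.2⟩
      · exact fun e => ⟨w.symm a, ⟨e.1, e.2⟩, w.apply_symm_apply a⟩
    have hcong : ∀ α w, ∀ a ∈ L w, ∀ b ∈ L w, X a - X b ∣ G α w a - G α w b := by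
      intro α w a ha b hb
      by_cases hab : a = b
      · subst hab; simp
      obtain ⟨a1, a2⟩ := (hLmem w a).1 ha
      obtain ⟨b1, b2⟩ := (hLmem w b).1 hb
      simp only [hG, if_pos ha, if_pos hb]
      set w1 := w * Equiv.swap K (w.symm a) with hw1
      set w2 := w * Equiv.swap K (w.symm b) with hw2
      have p1 : Pre h k w1 w := pre_swap w le_rfl a1 a2.symm
      have p2 : Pre h k w2 w := pre_swap w le_rfl b1 b2.symm
      have e1 : w1 K = a := by simp [w1]
      have e2 : w2 K = b := by simp [w2]
      rw [dvd_iff_idn]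
      refine unique_step hh hc (fun l => idn a b (X l)) d (k + 1) (by omega) w1
        (fun γ => idn a b (c γ w1 - c γ w2)) ?_ ?_ ?_ α
      · intro γ hγ; simp [hsup γ hγ]
      · intro p q hp hq _ e
        have hne : ∀ r : Fin n, k + 1 ≤ r.val → w1 r ≠ a := fun r hr e' => by
          have : r = K := w1.injective (e'.trans e1.symm)
          rw [this] at hr
          exact absurd hr (Nat.not_succ_le_self k)
        exact w1.injective (idn_injective (hne p hp) (hne q hq) e)
      · intro v hv
        have pv : Pre h k v w := (hv.symm.mono (Nat.le_succ k)).trans p1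
        have evK : v K = a := by rw [← hv.2 K (Nat.lt_succ_self k), e1]
        set i := v.symm b with hi
        have hvi : k ≤ i.val ∧ h i = h K := by
          have e' : Pre h k v w2 := pv.trans p2.symm
          have := e'.slot (i := K) le_rfl
          rw [e2] at this
          exact this
        have hne : K ≠ i := fun e => hab (by rw [← evK, e, hi, Equiv.apply_symm_apply])
        have hadj : Adj h K i := (adj_iff hh hc).2 ⟨lt_of_le_of_ne hvi.1 hne, hvi.2.symm⟩
        have hfv := hf v K i hadj
        rw [evK, hi, Equiv.apply_symm_apply, ← hi, dvd_iff_idn, map_sub, sub_eq_zero] at hfv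
        have hc2 : ∀ γ, c γ (v * Equiv.swap K i) = c γ w2 := by
          intro γ
          refine hinv γ _ _ ⟨(key_mul_swap v hvi.2.symm).trans (pv.trans p2.symm).1, fun l hl => ?_⟩
          by_cases e : l = K
          · subst e; rw [e2]; simp [i]
          · have hl' : l.val < k := lt_of_le_of_ne (Nat.lt_succ_iff.1 hl) fun e' => e (Fin.ext e')
            rw [← (pv.trans p2.symm).2 l hl', Equiv.Perm.mul_apply,
              Equiv.swap_apply_of_ne_of_ne e]
            rintro rfl; omega
        have hmon : ∀ γ, idn a b (mon h γ (v * Equiv.swap K i)) = idn a b (mon h γ v) := by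
          intro γ
          simp only [mon, map_prod, map_pow]
          refine prod_congr rfl fun l _ => ?_
          congr 1
          have hvI : v i = b := v.apply_symm_apply b
          rw [Equiv.Perm.mul_apply, Equiv.swap_apply_def]
          split_ifs with e e'
          · rw [e, evK, hvI, idn_X, idn_X, if_pos rfl, if_neg hab]
          · rw [e', evK, hvI, idn_X, idn_X, if_pos rfl, if_neg hab]
          · rfl
        rw [hfc v, hfc (v * Equiv.swap K i)] at hfv
        simp only [map_sum, map_mul, hmon, hc2] at hfv
        have hc1 : ∀ γ, c γ v = c γ w1 := fun γ => (hinv γ _ _ hv).symm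
        simp only [hc1] at hfv
        calc ∑ γ, idn a b (c γ w1 - c γ w2) * ∏ l, (idn a b (X (v l))) ^ (γ l).val
            = ∑ γ, idn a b (c γ w1) * idn a b (mon h γ v)
              - ∑ γ, idn a b (c γ w2) * idn a b (mon h γ v) := by
              rw [← sum_sub_distrib]
              refine sum_congr rfl fun γ _ => ?_
              simp only [mon, map_prod, map_pow, map_sub]
              ring
          _ = 0 := sub_eq_zero.2 hfv
    choose Q hQ using interpQ_exists (n := n)
    have hLinv : ∀ w v, Pre h k w v → L w = L v := by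
      intro w v e
      ext a
      rw [hLmem, hLmem]
      constructor <;> intro ha
      · have := e.symm.slot (i := w.symm a) ha.1
        rw [Equiv.apply_symm_apply] at this
        exact ⟨this.1, this.2.trans ha.2⟩
      · have := e.slot (i := v.symm a) ha.1
        rw [Equiv.apply_symm_apply] at this
        exact ⟨this.1, this.2.trans ha.2⟩
    have hGinv : ∀ α w v, Pre h k w v → G α w = G α v := by
      intro α w v e
      funext a
      simp only [hG, hLinv w v e]
      split_ifs with ha
      · obtain ⟨a1, a2⟩ := (hLmem v a).1 ha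
        obtain ⟨b1, b2⟩ := (hLmem w a).1 (hLinv w v e ▸ ha)
        refine hinv α _ _ ⟨(key_mul_swap w b2.symm).trans (e.1.trans (key_mul_swap v a2.symm).symm),
          fun l hl => ?_⟩
        by_cases el : l = K
        · subst el; simp
        · have hl' : l.val < k := lt_of_le_of_ne (Nat.lt_succ_iff.1 hl) fun e' => el (Fin.ext e')
          simp only [Equiv.Perm.mul_apply]
          rw [Equiv.swap_apply_of_ne_of_ne el (by rintro rfl; omega),
            Equiv.swap_apply_of_ne_of_ne el (by rintro rfl; omega)]
          exact e.2 l hl'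
      · rfl
    set Dc : Exp h → Fn n := fun β w =>
      if Sup h k β then (Q (L w) (G (Function.update β K 0) w)).coeff (β K).val else 0 with hDc
    refine ⟨Dc, fun β w v e => ?_, fun β hS => ?_, fun w => ?_⟩
    · simp only [hDc, hLinv w v e, hGinv _ w v e]
    · funext w; simp [hDc, hS]
    · rw [hfc w, sum_split K (fun α => Dc α w * mon h α w),
        ← sum_subset (subset_univ (univ.filter fun γ : Exp h => γ K = 0))]
      · refine sum_congr rfl fun γ hγ => ?_
        have hγ0 : γ K = 0 := (mem_filter.1 hγ).2
        simp only [mon, prod_update (fun i => X (w i)) K γ hγ0, ← mul_assoc, ← sum_mul]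
        congr 1
        by_cases hS : Sup h (k + 1) γ
        · have hu : ∀ e, Sup h k (Function.update γ K e) := fun e i hi => by
            rw [Function.update_of_ne]
            · exact hS i (Nat.lt_succ_of_lt hi)
            · rintro rfl; exact absurd hi (lt_irrefl k)
          obtain ⟨hq1, hq2⟩ := hQ (L w) (G γ w) (hcong γ w)
          have hmemK : w K ∈ L w := by
            rw [hLmem, Equiv.symm_apply_apply]; exact ⟨le_rfl, rfl⟩
          have hcard : (L w).card = (h K).val - K.val + 1 := by
            simp only [hL, card_image_of_injective _ w.injective, Fin.card_Icc]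
            have : K.val ≤ (h K).val := hh.le K
            omega
          have hev := hq2 _ hmemK
          simp only [hG, if_pos hmemK, Equiv.symm_apply_apply, Equiv.swap_self] at hev
          rw [show (Equiv.refl (Fin n) : Equiv.Perm (Fin n)) = 1 from rfl, mul_one] at hev
          rw [← hev, Polynomial.eval_eq_sum_range' (n := (L w).card)]
          · rw [hcard, ← Fin.sum_univ_eq_sum_range]
            refine sum_congr rfl fun e _ => ?_
            simp only [hDc, if_pos (hu e), Function.update_idem, Function.update_self]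
            congr 3
            rw [← hγ0, Function.update_eq_self]
          · refine lt_of_le_of_lt (Polynomial.natDegree_le_iff_coeff_eq_zero.2
              (fun m hm => hq1 m ?_) : _ ≤ (L w).card - 1) ?_
            · omega
            · omega
        · rw [hsup γ hS, Pi.zero_apply, eq_comm]
          refine sum_eq_zero fun e _ => ?_
          have : ¬ Sup h k (Function.update γ K e) := fun hu => hS fun i hi => by
            by_cases e' : i = K
            · exact e' ▸ hγ0
            · have := hu i (lt_of_le_of_ne (Nat.lt_succ_iff.1 hi) fun e'' => e' (Fin.ext e''))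
              rwa [Function.update_of_ne e'] at this
          simp [hDc, this]
      · intro γ _ hγ
        have : ¬ Sup h (k + 1) γ := fun hu => hγ (by simp [hu K (Nat.lt_succ_self k)])
        simp [hsup γ this]

end Vale.Agent.P066.Z.Base
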